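import Mathlib
import Vale.Agent.Lib.P162.Defs
import Vale.Agent.Lib.P162.RDefs
import Vale.Agent.Lib.P162.CVDefs
import Vale.Agent.Lib.P162.helper93.Gap
import Vale.Agent.Lib.P162.helper36.MoveInj
import Vale.Agent.Lib.P162.helper95.KmatBasic

/-!
# P162 (Thorp shuffle), job CV10: Doeblin minorization for the two-walker kernel

From any two positions avoiding the old cards the two walkers sit in the same position at time
`7 L + 1` with probability at least `1 / (16 h)`, where `L = Nat.clog 2 (2 * h)`. The facts about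
the two-walker kernel proved in other files are taken as hypotheses.
-/

namespace Vale.Agent.Lib.P162.H50CV

open Finset BigOperators

/-- A property preserved along nonzero entries of `A` is preserved along nonzero entries of the
powers of `A`. -/
theorem pow_support {S : Type*} [Fintype S] [DecidableEq S] (A : Matrix S S ℝ) (G : S → Prop)
    (hsupp : ∀ a b, G a → A a b ≠ 0 → G b) :
    ∀ (N : ℕ) (a b : S), G a → (A ^ N) a b ≠ 0 → G b := by
  intro N
  induction N with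
  | zero =>
    intro a b ha hne
    rw [pow_zero, Matrix.one_apply] at hne
    by_cases hab : a = b
    · rw [← hab]; exact ha
    · rw [if_neg hab] at hne; exact absurd rfl hne
  | succ N ih =>
    intro a b ha hne
    obtain ⟨x, hx, hxb⟩ := H93.H93_pow_succ_ne_zero A N a b hne
    exact hsupp x b (ih a x ha hx) hxb

/-- Entrywise comparison of the powers of a killed kernel `A` with the powers of `Q`, from good
starting points to target points. -/
theorem pow_compare {S : Type*} [Fintype S] [DecidableEq S] (A Q : Matrix S S ℝ)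
    (G D : S → Prop)
    (hA : ∀ a b, 0 ≤ A a b) (hQ : ∀ (t : ℕ) (a b : S), 0 ≤ (Q ^ t) a b)
    (hGD : ∀ a, G a → D a)
    (hsupp : ∀ a b, G a → A a b ≠ 0 → G b)
    (hAQ : ∀ a b, G a → D b → A a b ≤ Q a b) :
    ∀ (N : ℕ) (a b : S), G a → D b → (A ^ N) a b ≤ (Q ^ N) a b := by
  intro N
  induction N with
  | zero =>
    intro a b _ _
    rw [pow_zero, pow_zero]
  | succ N ih =>
    intro a b ha hb
    rw [pow_succ', pow_succ', Matrix.mul_apply, Matrix.mul_apply]
    apply Finset.sum_le_sum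
    intro c _
    have hQ1 : 0 ≤ Q a c := by
      have := hQ 1 a c
      rwa [pow_one] at this
    by_cases hAc : A a c = 0
    · rw [hAc, zero_mul]
      exact mul_nonneg hQ1 (hQ N c b)
    · have hGc : G c := hsupp a c ha hAc
      exact mul_le_mul (hAQ a c ha (hGD c hGc)) (ih c b hGc hb)
        (H93.H93_pow_nonneg A hA N c b) hQ1

/-- The abstract last-step bound. -/
theorem core {S : Type*} [Fintype S] [DecidableEq S] (A Q : Matrix S S ℝ)
    (G D : S → Prop) (Pt : Finset S) (M : S → ℝ)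
    (hA : ∀ a b, 0 ≤ A a b) (hQ : ∀ (t : ℕ) (a b : S), 0 ≤ (Q ^ t) a b)
    (hGD : ∀ a, G a → D a)
    (hsupp : ∀ a b, G a → A a b ≠ 0 → G b)
    (hAQ : ∀ a b, G a → D b → A a b ≤ Q a b)
    (hM0 : ∀ c, 0 ≤ M c)
    (hM : ∀ c, G c → c ∈ Pt → 1 / 2 ≤ M c)
    (N : ℕ) (u : S) (hu : G u) :
    (1 / 2 : ℝ) * ∑ c ∈ Pt, (A ^ N) u c ≤ ∑ c, (Q ^ N) u c * M c := by
  calc (1 / 2 : ℝ) * ∑ c ∈ Pt, (A ^ N) u c = ∑ c ∈ Pt, (A ^ N) u c * (1 / 2) := by
        rw [Finset.mul_sum]
        exact Finset.sum_congr rfl fun c _ => mul_comm _ _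
    _ ≤ ∑ c ∈ Pt, (Q ^ N) u c * M c := by
        apply Finset.sum_le_sum
        intro c hc
        by_cases hAc : (A ^ N) u c = 0
        · rw [hAc, zero_mul]
          exact mul_nonneg (hQ N u c) (hM0 c)
        · have hGc : G c := pow_support A G hsupp N u c hu hAc
          exact mul_le_mul (pow_compare A Q G D hA hQ hGD hsupp hAQ N u c hu (hGD c hGc))
            (hM c hGc hc) (by norm_num) (hQ N u c)
    _ ≤ ∑ c, (Q ^ N) u c * M c := by
        apply Finset.sum_le_sum_of_subset_of_nonneg (Finset.subset_univ Pt)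
        intro c _ _
        exact mul_nonneg (hQ N u c) (hM0 c)

/-- The meeting probability at time `N + 1`, split at the last step. -/
theorem Dcol_succ (h j : ℕ) [NeZero h] (N : ℕ) (u : Fin (j + 2) → ZMod (2 * h)) :
    Dcol h j (N + 1) u = ∑ c, (Qmat h j ^ N) u c *
      (∑ v : Fin j → ZMod (2 * h), ∑ x : ZMod (2 * h),
        Qmat h j c (Fin.cons x (Fin.cons x v) : Fin (j + 2) → ZMod (2 * h))) := by
  rw [Dcol_apply]
  have h1 : ∀ (v : Fin j → ZMod (2 * h)) (x : ZMod (2 * h)),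
      (Qmat h j ^ (N + 1)) u (Fin.cons x (Fin.cons x v) : Fin (j + 2) → ZMod (2 * h))
        = ∑ c, (Qmat h j ^ N) u c * Qmat h j c (Fin.cons x (Fin.cons x v)) := by
    intro v x
    rw [pow_succ, Matrix.mul_apply]
  calc ∑ v : Fin j → ZMod (2 * h), ∑ x : ZMod (2 * h),
        (Qmat h j ^ (N + 1)) u (Fin.cons x (Fin.cons x v) : Fin (j + 2) → ZMod (2 * h))
      = ∑ v : Fin j → ZMod (2 * h), ∑ x : ZMod (2 * h),
          ∑ c, (Qmat h j ^ N) u c * Qmat h j c (Fin.cons x (Fin.cons x v)) :=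
        Finset.sum_congr rfl fun v _ => Finset.sum_congr rfl fun x _ => h1 v x
    _ = ∑ v : Fin j → ZMod (2 * h), ∑ c, ∑ x : ZMod (2 * h),
          (Qmat h j ^ N) u c * Qmat h j c (Fin.cons x (Fin.cons x v)) :=
        Finset.sum_congr rfl fun v _ => Finset.sum_comm
    _ = ∑ c, ∑ v : Fin j → ZMod (2 * h), ∑ x : ZMod (2 * h),
          (Qmat h j ^ N) u c * Qmat h j c (Fin.cons x (Fin.cons x v)) := Finset.sum_comm
    _ = _ := by
        apply Finset.sum_congr rfl
        intro c _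
        rw [Finset.mul_sum]
        apply Finset.sum_congr rfl
        intro v _
        rw [Finset.mul_sum]

/-- The real arithmetic of the minorization constant. -/
theorem arith (h : ℕ) (hh : 0 < h) (hn : 15776 * Nat.clog 2 (2 * h) ^ 2 ≤ 2 * h) :
    1 / (16 * (h : ℝ)) ≤ (1 / 2 : ℝ) *
      (1 / ((2 * h : ℝ) - 1) - 2592 * (Nat.clog 2 (2 * h) : ℝ) ^ 2 / (2 * h : ℝ) ^ 2
          - (1 / ((2 * h : ℝ) - 1) + 2592 * (Nat.clog 2 (2 * h) : ℝ) ^ 2 / (2 * h : ℝ) ^ 2) / 2
          - ((7 * Nat.clog 2 (2 * h) : ℕ) : ℝ) * (1 / 2 ^ Nat.log 2 h) ^ 2 / 2) := by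
  have hL1n : 1 ≤ Nat.clog 2 (2 * h) := Nat.clog_pos (by norm_num) (by omega)
  have hcast : ((7 * Nat.clog 2 (2 * h) : ℕ) : ℝ) = 7 * (Nat.clog 2 (2 * h) : ℝ) := by
    push_cast; ring
  rw [hcast]
  have hL1 : (1 : ℝ) ≤ (Nat.clog 2 (2 * h) : ℝ) := by exact_mod_cast hL1n
  have hnR : 15776 * (Nat.clog 2 (2 * h) : ℝ) ^ 2 ≤ 2 * (h : ℝ) := by exact_mod_cast hn
  have hP : (h : ℝ) < 2 * (2 : ℝ) ^ Nat.log 2 h := by
    have h1 := Nat.lt_pow_succ_log_self (by norm_num : 1 < 2) h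
    have h2 : (h : ℝ) < ((2 ^ (Nat.log 2 h).succ : ℕ) : ℝ) := by exact_mod_cast h1
    rw [Nat.succ_eq_add_one, pow_succ] at h2
    push_cast at h2
    linarith
  generalize (Nat.clog 2 (2 * h) : ℝ) = L at hL1 hnR ⊢
  generalize (2 : ℝ) ^ Nat.log 2 h = P at hP ⊢
  have hhR : (1 : ℝ) ≤ (h : ℝ) := by exact_mod_cast hh
  generalize (h : ℝ) = H at hhR hnR hP ⊢
  have hn1 : (15776 : ℝ) ≤ 2 * H := by nlinarith
  have hnpos : (0 : ℝ) < 2 * H := by linarith
  have hPpos : 0 < P := by linarith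
  obtain ⟨i, hi⟩ : ∃ i : ℝ, i = 1 / (2 * H) := ⟨_, rfl⟩
  have hipos : 0 < i := by rw [hi]; positivity
  have hni : 2 * H * i = 1 := by rw [hi]; field_simp
  have ha : i ≤ 1 / (2 * H - 1) := by
    rw [hi]
    exact one_div_le_one_div_of_le (by linarith) (by linarith)
  have hb : (1 / P) ^ 2 ≤ 16 * i ^ 2 := by
    have h1 : 1 / P ≤ 4 * i := by
      rw [div_le_iff₀ hPpos]
      have h3 : 2 * H * (4 * i * P) = 4 * P := by
        calc 2 * H * (4 * i * P) = (2 * H * i) * (4 * P) := by ring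
          _ = 4 * P := by rw [hni, one_mul]
      by_contra hcon
      rw [not_le] at hcon
      have : 2 * H * (4 * i * P) < 2 * H * 1 := mul_lt_mul_of_pos_left hcon hnpos
      linarith
    have h0 : 0 ≤ 1 / P := by positivity
    calc (1 / P) ^ 2 ≤ (4 * i) ^ 2 := pow_le_pow_left₀ h0 h1 2
      _ = 16 * i ^ 2 := by ring
  have hδ : 2592 * L ^ 2 / (2 * H) ^ 2 = 2592 * L ^ 2 * i ^ 2 := by
    rw [hi]; field_simp
  rw [hδ]
  have e16 : 1 / (16 * H) = i / 8 := by
    rw [hi]; field_simp; ring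
  rw [e16]
  have hLL : L ≤ L ^ 2 := by nlinarith
  have h7 : 7 * L * (1 / P) ^ 2 ≤ 7 * L * (16 * i ^ 2) :=
    mul_le_mul_of_nonneg_left hb (by linarith)
  have hLi : L * i ^ 2 ≤ L ^ 2 * i ^ 2 := mul_le_mul_of_nonneg_right hLL (by positivity)
  have hni2 : 15776 * L ^ 2 * i ^ 2 ≤ 2 * H * i ^ 2 :=
    mul_le_mul_of_nonneg_right hnR (by positivity)
  have hni3 : 2 * H * i ^ 2 = i := by
    calc 2 * H * i ^ 2 = (2 * H * i) * i := by ring
      _ = i := by rw [hni, one_mul]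
  linarith

theorem minor_of (h j : ℕ) [NeZero h]
    (hQnn : ∀ (t : ℕ) (u y : Fin (j + 2) → ZMod (2 * h)), 0 ≤ (Qmat h j ^ t) u y)
    (hdef : ∀ (t : ℕ) (p : ZMod (2 * h)) (w : Fin j → ZMod (2 * h)),
      Function.Injective (Fin.cons p w : Fin (j + 1) → ZMod (2 * h)) →
      (defect h j t (Fin.cons p w)) ^ 2
        ≤ ((2 * h : ℝ) - j) * Dcol h j t (Fin.cons p (Fin.cons p w)) - 1)
    (hQK : ∀ (u y : Fin (j + 2) → ZMod (2 * h)), Function.Injective u → y 0 ≠ y 1 →
      (if u 1 = u 0 + (h : ZMod (2 * h)) then (1 / 2 : ℝ) else 1) * Kmat h (j + 2) u y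
        ≤ Qmat h j u y)
    (hmerge : ∀ (u : Fin (j + 2) → ZMod (2 * h)), Function.Injective u →
      u 1 = u 0 + (h : ZMod (2 * h)) →
      (1 / 2 : ℝ) ≤ ∑ v : Fin j → ZMod (2 * h), ∑ x : ZMod (2 * h),
        Qmat h j u (Fin.cons x (Fin.cons x v) : Fin (j + 2) → ZMod (2 * h)))
    (hreach : ∀ (u : Fin (j + 2) → ZMod (2 * h)), u 0 ≠ u 1 →
      1 / ((2 * h : ℝ) - 1) - 2592 * (Nat.clog 2 (2 * h) : ℝ) ^ 2 / (2 * h : ℝ) ^ 2
          - (1 / ((2 * h : ℝ) - 1) + 2592 * (Nat.clog 2 (2 * h) : ℝ) ^ 2 / (2 * h : ℝ) ^ 2) / 2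
          - ((7 * Nat.clog 2 (2 * h) : ℕ) : ℝ) * (1 / 2 ^ Nat.log 2 h) ^ 2 / 2
        ≤ ∑ b ∈ univ.filter (fun y : Fin (j + 2) → ZMod (2 * h) =>
              y 1 = y 0 + (h : ZMod (2 * h))),
            ((Matrix.of fun (a b : Fin (j + 2) → ZMod (2 * h)) =>
              (if a 1 = a 0 + (h : ZMod (2 * h)) then (1 / 2 : ℝ) else 1)
                * Kmat h (j + 2) a b) ^ (7 * Nat.clog 2 (2 * h))) u b)
    (hn : 15776 * Nat.clog 2 (2 * h) ^ 2 ≤ 2 * h)
    (v : Fin j → ZMod (2 * h)) (q q' : ZMod (2 * h)) (hv : Function.Injective v)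
    (hq : ∀ i, q ≠ v i) (hq' : ∀ i, q' ≠ v i) :
    1 / (16 * (h : ℝ))
      ≤ Dcol h j (7 * Nat.clog 2 (2 * h) + 1) (Fin.cons q (Fin.cons q' v)) := by
  have hh : 0 < h := Nat.pos_of_ne_zero (NeZero.ne h)
  have hhR : (1 : ℝ) ≤ (h : ℝ) := by exact_mod_cast hh
  have hinj' : Function.Injective (Fin.cons q' v : Fin (j + 1) → ZMod (2 * h)) := by
    rw [Fin.cons_injective_iff]
    exact ⟨fun ⟨i, hi⟩ => hq' i hi.symm, hv⟩
  by_cases hqq : q = q'
  · subst hqq
    have hcard : j + 1 ≤ 2 * h := by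
      have h1 := Fintype.card_le_of_injective _ hinj'
      rwa [Fintype.card_fin, ZMod.card] at h1
    have hd := hdef (7 * Nat.clog 2 (2 * h) + 1) q v hinj'
    have hsq : 0 ≤ (defect h j (7 * Nat.clog 2 (2 * h) + 1) (Fin.cons q v)) ^ 2 := sq_nonneg _
    generalize Dcol h j (7 * Nat.clog 2 (2 * h) + 1) (Fin.cons q (Fin.cons q v)) = D at hd ⊢
    generalize (defect h j (7 * Nat.clog 2 (2 * h) + 1) (Fin.cons q v)) ^ 2 = E at hd hsq
    have hm1 : (1 : ℝ) ≤ (2 * h : ℝ) - j := by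
      have h1 : ((j + 1 : ℕ) : ℝ) ≤ ((2 * h : ℕ) : ℝ) := by exact_mod_cast hcard
      push_cast at h1
      linarith
    have hmD : 1 ≤ ((2 * h : ℝ) - j) * D := by linarith
    have hDpos : 0 < D := by
      by_contra hneg
      rw [not_lt] at hneg
      have h1 : ((2 * h : ℝ) - j) * D ≤ 0 :=
        mul_nonpos_of_nonneg_of_nonpos (by linarith) hneg
      linarith
    have hm2 : ((2 * h : ℝ) - j) ≤ 2 * h := by
      have h1 : (0 : ℝ) ≤ (j : ℝ) := Nat.cast_nonneg j
      linarith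
    have h2 : 1 ≤ (2 * (h : ℝ)) * D := le_trans hmD (mul_le_mul_of_nonneg_right hm2 hDpos.le)
    rw [div_le_iff₀ (by positivity)]
    nlinarith
  · have huinj : Function.Injective
        (Fin.cons q (Fin.cons q' v) : Fin (j + 2) → ZMod (2 * h)) := by
      rw [Fin.cons_injective_iff]
      refine ⟨?_, hinj'⟩
      rintro ⟨i, hi⟩
      revert hi
      refine Fin.cases ?_ ?_ i
      · intro hi
        rw [Fin.cons_zero] at hi
        exact hqq hi.symm
      · intro i hi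
        rw [Fin.cons_succ] at hi
        exact hq i hi.symm
    have hu01 : (Fin.cons q (Fin.cons q' v) : Fin (j + 2) → ZMod (2 * h)) 0
        ≠ (Fin.cons q (Fin.cons q' v) : Fin (j + 2) → ZMod (2 * h)) 1 := by
      rw [Fin.cons_zero, Fin.cons_one, Fin.cons_zero]
      exact hqq
    have hQ1 : ∀ a b : Fin (j + 2) → ZMod (2 * h), 0 ≤ Qmat h j a b := by
      intro a b
      have h1 := hQnn 1 a b
      rwa [pow_one] at h1
    have hA0 : ∀ a b : Fin (j + 2) → ZMod (2 * h),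
        0 ≤ (Matrix.of fun (a b : Fin (j + 2) → ZMod (2 * h)) =>
          (if a 1 = a 0 + (h : ZMod (2 * h)) then (1 / 2 : ℝ) else 1)
            * Kmat h (j + 2) a b) a b := by
      intro a b
      show 0 ≤ (if a 1 = a 0 + (h : ZMod (2 * h)) then (1 / 2 : ℝ) else 1)
        * stepProb h (j + 2) a b
      refine mul_nonneg ?_ (H95.stepProb_nonneg h (j + 2) a b)
      by_cases hc : a 1 = a 0 + (h : ZMod (2 * h))
      · rw [if_pos hc]; norm_num
      · rw [if_neg hc]; norm_num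
    have hsupp : ∀ a b : Fin (j + 2) → ZMod (2 * h), Function.Injective a →
        (Matrix.of fun (a b : Fin (j + 2) → ZMod (2 * h)) =>
          (if a 1 = a 0 + (h : ZMod (2 * h)) then (1 / 2 : ℝ) else 1)
            * Kmat h (j + 2) a b) a b ≠ 0 → Function.Injective b := by
      intro a b ha hne
      have hK : stepProb h (j + 2) a b ≠ 0 := by
        intro h0
        apply hne
        show (if a 1 = a 0 + (h : ZMod (2 * h)) then (1 / 2 : ℝ) else 1)
          * stepProb h (j + 2) a b = 0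
        rw [h0, mul_zero]
      obtain ⟨c, hc⟩ := H93.H93_step_witness h (j + 2) a b hK
      have hb : b = move h c ∘ a := funext fun i => (hc i).symm
      rw [hb]
      exact (H36.move_injective h c).comp ha
    have hGD : ∀ a : Fin (j + 2) → ZMod (2 * h), Function.Injective a → a 0 ≠ a 1 :=
      fun a ha h01 => Fin.zero_ne_one (ha h01)
    have hcore := core
      (Matrix.of fun (a b : Fin (j + 2) → ZMod (2 * h)) =>
        (if a 1 = a 0 + (h : ZMod (2 * h)) then (1 / 2 : ℝ) else 1) * Kmat h (j + 2) a b)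
      (Qmat h j) Function.Injective (fun y => y 0 ≠ y 1)
      (univ.filter (fun y : Fin (j + 2) → ZMod (2 * h) => y 1 = y 0 + (h : ZMod (2 * h))))
      (fun c => ∑ v : Fin j → ZMod (2 * h), ∑ x : ZMod (2 * h),
        Qmat h j c (Fin.cons x (Fin.cons x v) : Fin (j + 2) → ZMod (2 * h)))
      hA0 hQnn hGD hsupp (fun a b ha hb => hQK a b ha hb)
      (fun c => Finset.sum_nonneg fun v _ => Finset.sum_nonneg fun x _ => hQ1 c _)
      (fun c hc hcP => hmerge c hc (Finset.mem_filter.mp hcP).2)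
      (7 * Nat.clog 2 (2 * h)) (Fin.cons q (Fin.cons q' v)) huinj
    rw [Dcol_succ]
    refine le_trans ?_ hcore
    exact le_trans (arith h hh hn)
      (mul_le_mul_of_nonneg_left (hreach _ hu01) (by norm_num))

end Vale.Agent.Lib.P162.H50CV
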